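import Vale.Agent.Lib.P321.SQ.LogLog

/-!
P321: for every fixed deletion probability, the worst-case sample complexity of trace
reconstruction is at least `n ^ (log log n / 100)` for all large `n`.
-/

namespace Vale.Agent.Results.P321.LogLog

open Vale.Agent.P321 Filter

theorem result (q : ℝ) (hq0 : 0 < q) (hq1 : q < 1) :
    ∀ᶠ n : ℕ in atTop,
      (n : ℝ) ^ (Real.log (Real.log n) / 100) ≤ (sampleComplexity q n : ℝ) :=
  SP.loglog hq0 hq1

end Vale.Agent.Results.P321.LogLog
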