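import Vale.Agent.Lib.P321.SQ.LogLog
import Vale.Agent.Lib.P321.SP.Final
import Vale.Agent.Lib.P321.Finite
import Vale.Agent.Lib.P321.ListEx

/-!
P321: worst-case trace reconstruction, stated with Mathlib's probability mass functions.  For every
fixed deletion probability `q`, the number `T_q(n)` of traces needed is not bounded by a polynomial
in `n`; it is at least `n ^ (log log n / 100)` for all large `n`.
-/

open scoped ENNReal NNReal

namespace Vale.Agent.Results.P321.NotPolynomial

/-- `𝒟_q(x)`, the law of a trace of the binary string `x`: each bit is deleted independently with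
probability `q` and the surviving bits are concatenated in their original order. -/
noncomputable def traceLaw (q : ℝ≥0) (hq : q ≤ 1) : List Bool → PMF (List Bool)
  | [] => PMF.pure []
  | b :: x => (PMF.bernoulli q hq).bind fun deleted =>
      (traceLaw q hq x).bind fun w => PMF.pure (if deleted then w else b :: w)

/-- The law of a sequence of `m` independent samples from the law `D`. -/
noncomputable def samples (D : PMF (List Bool)) : ℕ → PMF (List (List Bool))
  | 0 => PMF.pure []
  | m + 1 => D.bind fun w => (samples D m).bind fun t => PMF.pure (w :: t)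

/-- Some estimator (a randomized function from finite sequences of binary strings to `{0,1}^n`),
given `m` independent samples from `𝒟_q(x)`, outputs `x` with probability at least `2/3` for
every `x ∈ {0,1}^n`. -/
def Suffices (q : ℝ≥0) (hq : q ≤ 1) (n m : ℕ) : Prop :=
  ∃ est : List (List Bool) → PMF (Fin n → Bool), ∀ x : Fin n → Bool,
    2 / 3 ≤ ((samples (traceLaw q hq (List.ofFn x)) m).bind est) x

/-- `T_q(n)`: the least integer `m ≥ 0` such that `m` samples suffice. -/
noncomputable def T (q : ℝ≥0) (hq : q ≤ 1) (n : ℕ) : ℕ := sInf {m : ℕ | Suffices q hq n m}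

private noncomputable def E {α : Type*} (p : PMF α) (f : α → ℝ≥0∞) : ℝ≥0∞ := ∑' a, p a * f a

private theorem E_pure {α : Type*} (a : α) (f : α → ℝ≥0∞) : E (PMF.pure a) f = f a := by
  classical
  unfold E
  rw [tsum_eq_single a]
  · simp
  · intro b hb
    simp [hb]

private theorem E_bind {α β : Type*} (p : PMF α) (g : α → PMF β) (f : β → ℝ≥0∞) :
    E (p.bind g) f = E p (fun a => E (g a) f) := by
  unfold E
  simp only [PMF.bind_apply, ← ENNReal.tsum_mul_right, ← ENNReal.tsum_mul_left]
  rw [ENNReal.tsum_comm]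
  simp only [mul_assoc]

private theorem E_bernoulli (q : ℝ≥0) (hq : q ≤ 1) (f : Bool → ℝ≥0∞) :
    E (PMF.bernoulli q hq) f = q * f true + (1 - q : ℝ≥0) * f false := by
  unfold E
  rw [tsum_fintype]
  simp [PMF.bernoulli_apply]

open Vale.Agent.P321 (trace patternProb IsEstimator successProb Reconstructs sampleComplexity
  trace_cons patternProb_nonneg sum_patternProb)

private theorem pattern_cons (q : ℝ≥0) (hq : q ≤ 1) {n : ℕ} (b : Bool) (K : Fin n → Bool) :
    ENNReal.ofReal (patternProb q (Fin.cons b K : Fin (n + 1) → Bool)) =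
      (if b then ((1 - q : ℝ≥0) : ℝ≥0∞) else q) * ENNReal.ofReal (patternProb q K) := by
  have hq' : (q : ℝ) ≤ 1 := by exact_mod_cast hq
  have h : patternProb (q : ℝ) (Fin.cons b K : Fin (n + 1) → Bool) =
      (if b then 1 - (q : ℝ) else q) * patternProb q K := by
    unfold patternProb
    rw [Fin.prod_univ_succ]
    simp
  rw [h, ENNReal.ofReal_mul (by split_ifs; exacts [by linarith, q.2])]
  congr 1
  cases b
  · simp
  · simp only [if_true]
    rw [← NNReal.coe_one, ← NNReal.coe_sub hq, ENNReal.ofReal_coe_nnreal]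

private theorem E_trace (q : ℝ≥0) (hq : q ≤ 1) {n : ℕ} (x : Fin n → Bool)
    (f : List Bool → ℝ≥0∞) : E (traceLaw q hq (List.ofFn x)) f =
      ∑ K : Fin n → Bool, ENNReal.ofReal (patternProb q K) * f (trace x K) := by
  induction n generalizing f with
  | zero =>
    simp [traceLaw, E_pure, patternProb, trace]
  | succ n ih =>
    rw [List.ofFn_succ, traceLaw, E_bind, E_bernoulli, E_bind, E_bind]
    simp only [E_pure]
    rw [ih, ih, ← (Fin.consEquiv (fun _ => Bool)).sum_comp, Fintype.sum_prod_type,
      Fintype.sum_bool]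
    change _ = (∑ K : Fin n → Bool,
        ENNReal.ofReal (patternProb q (Fin.cons true K : Fin (n + 1) → Bool)) *
          f (trace x (Fin.cons true K))) +
      ∑ K : Fin n → Bool,
        ENNReal.ofReal (patternProb q (Fin.cons false K : Fin (n + 1) → Bool)) *
          f (trace x (Fin.cons false K))
    simp only [pattern_cons q hq, trace_cons, if_true, Bool.false_eq_true, if_false]
    rw [add_comm, Finset.mul_sum, Finset.mul_sum]
    simp only [mul_assoc]

private theorem E_samples {κ : Type} [Fintype κ] (D : PMF (List Bool)) (w : κ → ℝ≥0∞)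
    (τ : κ → List Bool) (hD : ∀ f, E D f = ∑ k, w k * f (τ k)) (m : ℕ)
    (F : List (List Bool) → ℝ≥0∞) :
    E (samples D m) F = ∑ K : Fin m → κ, (∏ j, w (K j)) * F (List.ofFn fun j => τ (K j)) := by
  induction m generalizing F with
  | zero =>
    simp [samples, E_pure]
  | succ m ih =>
    rw [samples, E_bind, hD, ← (Fin.consEquiv (fun _ => κ)).sum_comp, Fintype.sum_prod_type]
    refine Finset.sum_congr rfl fun k _ => ?_
    rw [E_bind, ih, Finset.mul_sum]
    refine Finset.sum_congr rfl fun K _ => ?_
    rw [E_pure]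
    change _ = (∏ j, w ((Fin.cons k K : Fin (m + 1) → κ) j)) *
      F (List.ofFn fun j => τ ((Fin.cons k K : Fin (m + 1) → κ) j))
    rw [Fin.prod_univ_succ, List.ofFn_succ]
    simp only [Fin.cons_zero, Fin.cons_succ, mul_assoc]

private theorem success_eq (q : ℝ≥0) (hq : q ≤ 1) {n m : ℕ}
    (est : List (List Bool) → PMF (Fin n → Bool)) (x : Fin n → Bool) :
    ((samples (traceLaw q hq (List.ofFn x)) m).bind est) x =
      ENNReal.ofReal (successProb q
        (fun (t : Fin m → List Bool) z => (est (List.ofFn t) z).toReal) x) := by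
  have hq' : (q : ℝ) ≤ 1 := by exact_mod_cast hq
  have hp : ∀ K : Fin n → Bool, 0 ≤ patternProb (q : ℝ) K := fun K =>
    patternProb_nonneg q.2 hq' K
  have h1 : ((samples (traceLaw q hq (List.ofFn x)) m).bind est) x =
      E (samples (traceLaw q hq (List.ofFn x)) m) (fun t => est t x) := PMF.bind_apply _ _ _
  rw [h1, E_samples _ _ _ (E_trace q hq x)]
  unfold successProb
  rw [ENNReal.ofReal_sum_of_nonneg
    (fun K _ => mul_nonneg (Finset.prod_nonneg fun j _ => hp _) ENNReal.toReal_nonneg)]
  refine Finset.sum_congr rfl fun K _ => ?_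
  rw [ENNReal.ofReal_mul (Finset.prod_nonneg fun j _ => hp _),
    ENNReal.ofReal_prod_of_nonneg (fun j _ => hp _), ENNReal.ofReal_toReal]
  exact PMF.apply_ne_top _ _

private theorem two_thirds (r : ℝ) : 2 / 3 ≤ ENNReal.ofReal r ↔ 2 / 3 ≤ r := by
  have h : (2 / 3 : ℝ≥0∞) = ENNReal.ofReal (2 / 3) := by
    rw [ENNReal.ofReal_div_of_pos (by norm_num)]
    simp
  rw [h]
  constructor
  · intro h2
    by_contra h3
    push Not at h3
    exact absurd h2 (not_le.2 ((ENNReal.ofReal_lt_ofReal_iff (by norm_num)).2 h3))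
  · exact ENNReal.ofReal_le_ofReal

private theorem suffices_iff (q : ℝ≥0) (hq : q ≤ 1) (n m : ℕ) :
    Suffices q hq n m ↔ Reconstructs q n m := by
  constructor
  · rintro ⟨est, h⟩
    refine ⟨fun t z => (est (List.ofFn t) z).toReal, ?_, fun x => ?_⟩
    · intro t
      refine ⟨fun z => ENNReal.toReal_nonneg, ?_⟩
      have h5 : ∑ z, (est (List.ofFn t)) z = 1 := by
        have h6 := (est (List.ofFn t)).tsum_coe
        rwa [tsum_fintype] at h6
      rw [← ENNReal.toReal_sum (fun z _ => PMF.apply_ne_top _ _), h5, ENNReal.toReal_one]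
    · have h1 := h x
      rw [success_eq, two_thirds] at h1
      exact h1
  · rintro ⟨est, h1, h2⟩
    refine ⟨fun L => PMF.ofFintype (fun z => ENNReal.ofReal (est (fun j => L.getD j []) z)) ?_,
      fun x => ?_⟩
    · rw [← ENNReal.ofReal_sum_of_nonneg (fun z _ => (h1 _).1 z), (h1 _).2, ENNReal.ofReal_one]
    · rw [success_eq, two_thirds]
      have h3 := h2 x
      have h4 : (fun (t : Fin m → List Bool) (z : Fin n → Bool) =>
          ((PMF.ofFintype (fun z => ENNReal.ofReal (est (fun j => (List.ofFn t).getD j []) z))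
            (by rw [← ENNReal.ofReal_sum_of_nonneg (fun z _ => (h1 _).1 z), (h1 _).2,
              ENNReal.ofReal_one])) z).toReal) = est := by
        funext t z
        rw [PMF.ofFintype_apply, ENNReal.toReal_ofReal ((h1 _).1 z)]
        congr 1
        funext j
        simp [List.getD]
      rw [h4]
      exact h3

private theorem T_eq (q : ℝ≥0) (hq : q ≤ 1) (n : ℕ) : T q hq n = sampleComplexity q n := by
  unfold T sampleComplexity
  congr 1
  ext m
  exact suffices_iff q hq n m

/-- Worst-case trace reconstruction, for every fixed deletion probability `q ∈ (0,1)`.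
`T_q(n)` is well defined; it is NOT bounded by a polynomial in `n`; and for all large `n` it is at
least `n ^ (log log n / 100)`. -/
theorem result (q : ℝ≥0) (hq0 : 0 < q) (hq1 : q < 1) :
    (∀ n : ℕ, ∃ m : ℕ, Suffices q hq1.le n m) ∧
    (¬ ∃ C K : ℝ, ∀ n : ℕ, 1 ≤ n → (T q hq1.le n : ℝ) ≤ C * (n : ℝ) ^ K) ∧
    (∃ n₀ : ℕ, ∀ n : ℕ, n₀ ≤ n →
      (n : ℝ) ^ (Real.log (Real.log n) / 100) ≤ (T q hq1.le n : ℝ)) := by
  have h0 : (0 : ℝ) < q := by exact_mod_cast hq0
  have h1 : (q : ℝ) < 1 := by exact_mod_cast hq1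
  refine ⟨fun n => ?_, ?_, ?_⟩
  · obtain ⟨m, hm⟩ := Vale.Agent.P321.reconstructs_exists h0.le h1 n
    exact ⟨m, (suffices_iff q hq1.le n m).2 hm⟩
  · rintro ⟨C, K, h⟩
    have h2 := Vale.Agent.P321.SP.superpoly_tendsto h0 h1 K
    obtain ⟨n, hn, hn1⟩ := ((h2.eventually_gt_atTop C).and
      (Filter.eventually_ge_atTop 1)).exists
    have h3 := h n hn1
    have hn0 : (0 : ℝ) < (n : ℝ) ^ K := Real.rpow_pos_of_pos (by exact_mod_cast hn1) _
    rw [T_eq] at h3
    rw [lt_div_iff₀ hn0] at hn
    linarith
  · obtain ⟨n₀, h⟩ := Filter.eventually_atTop.1 (Vale.Agent.P321.SP.loglog h0 h1)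
    refine ⟨n₀, fun n hn => ?_⟩
    rw [T_eq]
    exact h n hn

end Vale.Agent.Results.P321.NotPolynomial
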