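import Vale.Agent.Lib.P321.SP.Final

/-!
P321: for every fixed deletion probability, the worst-case sample complexity of trace
reconstruction grows faster than every polynomial.
-/

namespace Vale.Agent.Results.P321.Superpoly

open Vale.Agent.P321 Filter

theorem result (q : ℝ) (hq0 : 0 < q) (hq1 : q < 1) (K : ℝ) :
    Tendsto (fun n : ℕ => (sampleComplexity q n : ℝ) / (n : ℝ) ^ K) atTop atTop :=
  SP.superpoly_tendsto hq0 hq1 K

end Vale.Agent.Results.P321.Superpoly
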