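import Vale.Agent.TR321.Main

/-!
# Worst-case trace reconstruction needs `n^{7/4 - ε}` traces

For every fixed deletion probability `q ∈ (0,1)` and every `ε > 0` there is `c > 0` such that,
for all `n ≥ 1`, no estimator (randomized, without computational restriction) that uses fewer than
`c n^{7/4 - ε}` independent traces recovers every `x ∈ {0,1}^n` with probability at least `2/3`.
-/

namespace Vale.Agent.Results.P321.TraceLowerBound

theorem result (q : ℝ) (h0 : 0 < q) (h1 : q < 1) (ε : ℝ) (hε : 0 < ε) :
    ∃ c : ℝ, 0 < c ∧ ∀ n : ℕ, 1 ≤ n → ∀ m : ℕ, P321.Reconstructible q n m →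
      c * (n : ℝ) ^ ((7 : ℝ) / 4 - ε) ≤ (m : ℝ) :=
  P321.main h0 h1 hε

end Vale.Agent.Results.P321.TraceLowerBound
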